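import Mathlib
import Crest.Agent.Helper3.Shuffle.Conv

/-!
helper54: shared DEFINITIONS and STATEMENT SHAPES for the Lean pre-build of (GAP) for S0222
(Thorp shuffle).  No theorem about the shuffle is proved here; the file only fixes the
interface so that the leaves (pass recursion, single-card uniformity, Johnson bound,
Lemma A) and the assembly can be written independently.

Deck with `M` columns and two rows: position `x : Fin (2 * M)` sits in column `x / 2` and
row `x % 2` (row `false` = even positions = "top row").  An arrangement is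
`g : Equiv.Perm (Fin (2 * M))`, read as "card `a` sits at position `g a`"; a shuffle with
position map `k` acts by `g ↦ k * g`, and the operator of helper3's `opL` is
`ψ ↦ fun g => E ψ (k⁻¹ * g)`.
-/

set_option autoImplicit false

namespace Crest.Agent.Helper54.Shuffle

open Crest.ProbabilityR.Shuffle Crest.Agent.Helper13.Shuffle Crest.Agent.Helper3.Shuffle

/-- Position `2 * y + (1 if b)`: column `y`, row `b`. -/
def mkPos {M : ℕ} (y : Fin M) (b : Bool) : Fin (2 * M) :=
  ⟨2 * y.val + (if b then 1 else 0), by have := y.isLt; split <;> omega⟩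

/-- Column of a position. -/
def colOf {M : ℕ} (x : Fin (2 * M)) : Fin M := ⟨x.val / 2, by have := x.isLt; omega⟩

/-- Row of a position (`true` = odd position = bottom row). -/
def rowOf {M : ℕ} (x : Fin (2 * M)) : Bool := decide (x.val % 2 = 1)

theorem mkPos_val {M : ℕ} (y : Fin M) (b : Bool) :
    (mkPos y b).val = 2 * y.val + (if b then 1 else 0) := rfl

theorem colOf_val {M : ℕ} (x : Fin (2 * M)) : (colOf x).val = x.val / 2 := rfl

theorem colOf_mkPos {M : ℕ} (y : Fin M) (b : Bool) : colOf (mkPos y b) = y := by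
  apply Fin.ext
  rw [colOf_val, mkPos_val]
  cases b
  · simp
  · simp only [if_true]; omega

theorem rowOf_mkPos {M : ℕ} (y : Fin M) (b : Bool) : rowOf (mkPos y b) = b := by
  unfold rowOf
  rw [mkPos_val]
  cases b
  · simp
  · simp only [if_true]
    have h : (2 * y.val + 1) % 2 = 1 := by omega
    simp [h]

theorem mkPos_colOf_rowOf {M : ℕ} (x : Fin (2 * M)) : mkPos (colOf x) (rowOf x) = x := by
  apply Fin.ext
  rw [mkPos_val, colOf_val]
  unfold rowOf
  by_cases h : x.val % 2 = 1
  · simp [h]; omega
  · simp [h]; omega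

/-- Positions as pairs (column, row). -/
def posEquiv (M : ℕ) : Fin (2 * M) ≃ Fin M × Bool where
  toFun x := (colOf x, rowOf x)
  invFun p := mkPos p.1 p.2
  left_inv x := mkPos_colOf_rowOf x
  right_inv p := by
    rcases p with ⟨y, b⟩
    simp [colOf_mkPos, rowOf_mkPos]

/-- On pairs: flip the row in the columns selected by `c`. -/
def swapPair {M : ℕ} (c : Fin M → Bool) : Equiv.Perm (Fin M × Bool) where
  toFun p := (p.1, xor p.2 (c p.1))
  invFun p := (p.1, xor p.2 (c p.1))
  left_inv p := by rcases p with ⟨y, b⟩; simp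
  right_inv p := by rcases p with ⟨y, b⟩; simp

/-- On pairs: permute the columns of the top row by `π0` and of the bottom row by `π1`. -/
def rowsPair {M : ℕ} (π0 π1 : Equiv.Perm (Fin M)) : Equiv.Perm (Fin M × Bool) where
  toFun p := ((if p.2 then π1 else π0) p.1, p.2)
  invFun p := ((if p.2 then π1.symm else π0.symm) p.1, p.2)
  left_inv p := by rcases p with ⟨y, b⟩; cases b <;> simp
  right_inv p := by rcases p with ⟨y, b⟩; cases b <;> simp

/-- The column swap: the two cards of every column `y` with `c y = true` change places. -/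
def swapCols {M : ℕ} (c : Fin M → Bool) : Equiv.Perm (Fin (2 * M)) :=
  ((posEquiv M).trans (swapPair c)).trans (posEquiv M).symm

/-- The row shuffle: column permutation `π0` in the top row and `π1` in the bottom row. -/
def rows {M : ℕ} (π0 π1 : Equiv.Perm (Fin M)) : Equiv.Perm (Fin (2 * M)) :=
  ((posEquiv M).trans (rowsPair π0 π1)).trans (posEquiv M).symm

theorem swapCols_apply {M : ℕ} (c : Fin M → Bool) (x : Fin (2 * M)) :
    swapCols c x = mkPos (colOf x) (xor (rowOf x) (c (colOf x))) := rfl

theorem rows_apply {M : ℕ} (π0 π1 : Equiv.Perm (Fin M)) (x : Fin (2 * M)) :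
    rows π0 π1 x = mkPos ((if rowOf x then π1 else π0) (colOf x)) (rowOf x) := rfl

theorem swapCols_mkPos {M : ℕ} (c : Fin M → Bool) (y : Fin M) (b : Bool) :
    swapCols c (mkPos y b) = mkPos y (xor b (c y)) := by
  rw [swapCols_apply, colOf_mkPos, rowOf_mkPos]

theorem rows_mkPos {M : ℕ} (π0 π1 : Equiv.Perm (Fin M)) (y : Fin M) (b : Bool) :
    rows π0 π1 (mkPos y b) = mkPos ((if b then π1 else π0) y) b := by
  rw [rows_apply, colOf_mkPos, rowOf_mkPos]

/-- The column-swap average `E`: `(opE M ψ) g` is the mean of `ψ ((swapCols c)⁻¹ * g)` over all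
`2 ^ M` swap patterns `c`. -/
noncomputable def opE (M : ℕ) (ψ : Equiv.Perm (Fin (2 * M)) → ℝ)
    (g : Equiv.Perm (Fin (2 * M))) : ℝ :=
  (∑ c : Fin M → Bool, ψ ((swapCols c)⁻¹ * g)) / (2 : ℝ) ^ M

/-! ### Statement shapes (each is a `Prop`; the leaves prove them, the assembly consumes them) -/

/-- (GAP at one size) `t` shuffles of the deck with parameter `m` (that is `2 * m` cards)
contract the squared `L²` norm of mean-zero functions by `lam`. -/
def Contracts (m t : ℕ) (lam : ℝ) : Prop :=
  ∀ ψ : Equiv.Perm (Fin (2 * m)) → ℝ, ∑ g, ψ g = 0 →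
    ∑ g, (opL m t ψ g) ^ 2 ≤ lam * ∑ g, (ψ g) ^ 2

/-- (H1) after `t` shuffles every single card is exactly uniform:
`P(permOf m t cs y = z) = 1 / (2 m)` for all positions `y`, `z`. -/
def SingleUniform (m t : ℕ) : Prop :=
  ∀ y z : Fin (2 * m),
    expect m t (fun k => if k y = z then (1 : ℝ) else 0) = 1 / (2 * (m : ℝ))

/-- (PASS RECURSION) `t + 1` shuffles of the deck with `2 * (2 * m')` cards are: two independent
runs of `t` shuffles of the half deck, one on the columns of each row, followed by an independent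
uniform column swap. -/
def PassRec (m' t : ℕ) : Prop :=
  ∀ F : Equiv.Perm (Fin (2 * (2 * m'))) → ℝ,
    expect (2 * m') (t + 1) F =
      (∑ c : Fin (2 * m') → Bool,
        expect m' t (fun π0 => expect m' t (fun π1 => F (swapCols c * rows π0 π1)))) /
          (2 : ℝ) ^ (2 * m')

/-- (JOHNSON) for mean-zero functions of the top SET (invariant under all row shuffles) the
column-swap average contracts the squared norm by `1 / (number of cards)`. -/
def JohnsonBound (M : ℕ) : Prop :=
  ∀ ψ : Equiv.Perm (Fin (2 * M)) → ℝ,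
    (∀ (π0 π1 : Equiv.Perm (Fin M)) (g : Equiv.Perm (Fin (2 * M))), ψ (rows π0 π1 * g) = ψ g) →
    ∑ g, ψ g = 0 →
    ∑ g, (opE M ψ g) ^ 2 ≤ (1 / (2 * (M : ℝ))) * ∑ g, (ψ g) ^ 2

/-- (LEMMA A, helper82) for functions of the top ROW (invariant under shuffles of the bottom row)
whose conditional mean given the card in any single top position vanishes, the column-swap
average contracts the squared norm by `1 / 4`. -/
def LemmaA (M : ℕ) : Prop :=
  ∀ ψ : Equiv.Perm (Fin (2 * M)) → ℝ,
    (∀ (π : Equiv.Perm (Fin M)) (g : Equiv.Perm (Fin (2 * M))), ψ (rows 1 π * g) = ψ g) →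
    (∀ (a : Fin (2 * M)) (y : Fin M),
      ∑ g : Equiv.Perm (Fin (2 * M)), (if g a = mkPos y false then ψ g else 0) = 0) →
    ∑ g, (opE M ψ g) ^ 2 ≤ (1 / 4) * ∑ g, (ψ g) ^ 2

end Crest.Agent.Helper54.Shuffle
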