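import Mathlib
import Crest.Agent.Helper3.Shuffle.Conv

/-!
helper54: the ABSTRACT part of the assembly of (GAP) for S0222 (Thorp shuffle).

`G`, `S` finite groups, `ρ0 ρ1 : S →* G` two commuting homomorphisms (in the application: the
shuffles of the top row and of the bottom row of a two-row deck), `ν` a probability weight on `S`
(the law of the half-deck pass), `E` an additive operator on functions on `G` (the column swap
average).  `four_block` : if `ν` contracts mean-zero functions on `S` by `lam`, and `E` contracts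
the three "partially invariant" blocks by `a0`, `1/4`, `1/4`, then `E ∘ mix ρ0 ∘ mix ρ1`
contracts mean-zero functions on `G` by `a0 + lam / 2 + lam ^ 2`.

Nothing in this file is specific to the shuffle.
-/

set_option autoImplicit false
set_option linter.unusedSectionVars false

namespace Crest.Agent.Helper54.Shuffle

open Crest.Agent.Helper3.Shuffle

section Abstract

variable {G S : Type*} [Group G] [Fintype G] [Group S] [Fintype S]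

/-- Squared `L²` norm (counting measure). -/
noncomputable def nsq (ψ : G → ℝ) : ℝ := ∑ g, (ψ g) ^ 2

/-- Average over the left action of `S` through `ρ`. -/
noncomputable def avgH (ρ : S →* G) (ψ : G → ℝ) (g : G) : ℝ :=
  (∑ π : S, ψ (ρ π * g)) / (Fintype.card S : ℝ)

/-- Mixture of left translates through `ρ` with weights `ν`. -/
noncomputable def mixH (ρ : S →* G) (ν : S → ℝ) (ψ : G → ℝ) (g : G) : ℝ :=
  ∑ k : S, ν k * ψ ((ρ k)⁻¹ * g)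

/-- Invariance under the left action of `S` through `ρ`. -/
def InvH (ρ : S →* G) (ψ : G → ℝ) : Prop := ∀ (π : S) (g : G), ψ (ρ π * g) = ψ g

theorem nsq_nonneg (ψ : G → ℝ) : 0 ≤ nsq ψ := Finset.sum_nonneg (fun _ _ => sq_nonneg _)

theorem cardS_pos : (0 : ℝ) < (Fintype.card S : ℝ) := by
  exact_mod_cast Fintype.card_pos

theorem cardS_ne : (Fintype.card S : ℝ) ≠ 0 := (cardS_pos (S := S)).ne'

theorem sum_translate (k : G) (F : G → ℝ) : ∑ g, F (k * g) = ∑ g, F g :=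
  Equiv.sum_comp (Equiv.mulLeft k) F

theorem InvH.sub {ρ : S →* G} {ψ φ : G → ℝ} (h1 : InvH ρ ψ) (h2 : InvH ρ φ) :
    InvH ρ (ψ - φ) := by
  intro π g
  simp only [Pi.sub_apply, h1 π g, h2 π g]

theorem InvH.add {ρ : S →* G} {ψ φ : G → ℝ} (h1 : InvH ρ ψ) (h2 : InvH ρ φ) :
    InvH ρ (ψ + φ) := by
  intro π g
  simp only [Pi.add_apply, h1 π g, h2 π g]

/-! ### The average -/

theorem avgH_inv (ρ : S →* G) (ψ : G → ℝ) : InvH ρ (avgH ρ ψ) := by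
  intro π g
  unfold avgH
  congr 1
  rw [← Equiv.sum_comp (Equiv.mulRight π) (fun π' => ψ (ρ π' * g))]
  apply Finset.sum_congr rfl
  intro π' _
  simp [mul_assoc]

theorem avgH_of_inv (ρ : S →* G) (ψ : G → ℝ) (h : InvH ρ ψ) : avgH ρ ψ = ψ := by
  funext g
  unfold avgH
  have h' : ∀ π : S, ψ (ρ π * g) = ψ g := fun π => h π g
  simp_rw [h']
  rw [Finset.sum_const, Finset.card_univ, nsmul_eq_mul]
  have := cardS_ne (S := S)
  field_simp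

theorem avgH_idem (ρ : S →* G) (ψ : G → ℝ) : avgH ρ (avgH ρ ψ) = avgH ρ ψ :=
  avgH_of_inv ρ _ (avgH_inv ρ ψ)

theorem avgH_add (ρ : S →* G) (ψ φ : G → ℝ) : avgH ρ (ψ + φ) = avgH ρ ψ + avgH ρ φ := by
  funext g
  simp only [avgH, Pi.add_apply, Finset.sum_add_distrib, add_div]

theorem avgH_sub (ρ : S →* G) (ψ φ : G → ℝ) : avgH ρ (ψ - φ) = avgH ρ ψ - avgH ρ φ := by
  funext g
  simp only [avgH, Pi.sub_apply, Finset.sum_sub_distrib, sub_div]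

theorem sum_mul_avgH (ρ : S →* G) (χ ψ : G → ℝ) (hχ : InvH ρ χ) :
    ∑ g, χ g * avgH ρ ψ g = ∑ g, χ g * ψ g := by
  have h : ∀ π : S, ∑ g, χ g * ψ (ρ π * g) = ∑ g, χ g * ψ g := by
    intro π
    rw [← sum_translate (ρ π) (fun g => χ g * ψ g)]
    apply Finset.sum_congr rfl
    intro g _
    rw [hχ π g]
  have h2 : ∀ g, χ g * avgH ρ ψ g = (∑ π : S, χ g * ψ (ρ π * g)) / (Fintype.card S : ℝ) := by
    intro g
    unfold avgH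
    rw [← Finset.mul_sum, mul_div_assoc]
  simp_rw [h2]
  rw [← Finset.sum_div, Finset.sum_comm]
  simp_rw [h]
  rw [Finset.sum_const, Finset.card_univ, nsmul_eq_mul]
  have := cardS_ne (S := S)
  field_simp

theorem sum_avgH (ρ : S →* G) (ψ : G → ℝ) : ∑ g, avgH ρ ψ g = ∑ g, ψ g := by
  have h := sum_mul_avgH ρ (fun _ => (1 : ℝ)) ψ (fun _ _ => rfl)
  simpa using h

/-- Pythagoras for the orthogonal projection `avgH ρ`. -/
theorem nsq_pyth (ρ : S →* G) (ψ : G → ℝ) :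
    nsq ψ = nsq (avgH ρ ψ) + nsq (ψ - avgH ρ ψ) := by
  have h1 := sum_mul_avgH ρ (avgH ρ ψ) ψ (avgH_inv ρ ψ)
  unfold nsq
  rw [← Finset.sum_add_distrib]
  have h2 : ∀ g, ψ g ^ 2 = ((avgH ρ ψ g) ^ 2 + ((ψ - avgH ρ ψ) g) ^ 2) +
      2 * (avgH ρ ψ g * ψ g - avgH ρ ψ g * avgH ρ ψ g) := by
    intro g
    simp only [Pi.sub_apply]
    ring
  simp_rw [h2]
  rw [Finset.sum_add_distrib, ← Finset.mul_sum, Finset.sum_sub_distrib, h1, sub_self, mul_zero,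
    add_zero]

theorem avgH_comm (ρ ρ' : S →* G) (hc : ∀ π π', ρ π * ρ' π' = ρ' π' * ρ π) (ψ : G → ℝ) :
    avgH ρ (avgH ρ' ψ) = avgH ρ' (avgH ρ ψ) := by
  funext g
  unfold avgH
  simp_rw [← Finset.sum_div]
  rw [Finset.sum_comm]
  congr 2
  apply Finset.sum_congr rfl
  intro π' _
  apply Finset.sum_congr rfl
  intro π _
  rw [← mul_assoc, ← mul_assoc, hc]

theorem avgH_inv_of_comm (ρ ρ' : S →* G) (hc : ∀ π π', ρ π * ρ' π' = ρ' π' * ρ π) (ψ : G → ℝ)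
    (h : InvH ρ ψ) : InvH ρ (avgH ρ' ψ) := by
  intro π g
  unfold avgH
  congr 1
  apply Finset.sum_congr rfl
  intro π' _
  rw [← mul_assoc, ← hc, mul_assoc, h]

/-! ### The mixture -/

theorem mixH_of_inv (ρ : S →* G) (ν : S → ℝ) (hν1 : ∑ k, ν k = 1) (ψ : G → ℝ) (h : InvH ρ ψ) :
    mixH ρ ν ψ = ψ := by
  funext g
  unfold mixH
  have h' : ∀ k : S, ψ ((ρ k)⁻¹ * g) = ψ g := by
    intro k
    rw [← map_inv]
    exact h k⁻¹ g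
  simp_rw [h']
  rw [← Finset.sum_mul, hν1, one_mul]

theorem mixH_add (ρ : S →* G) (ν : S → ℝ) (ψ φ : G → ℝ) :
    mixH ρ ν (ψ + φ) = mixH ρ ν ψ + mixH ρ ν φ := by
  funext g
  simp only [mixH, Pi.add_apply, mul_add, Finset.sum_add_distrib]

theorem mixH_inv_of_comm (ρ ρ' : S →* G) (hc : ∀ π π', ρ π * ρ' π' = ρ' π' * ρ π) (ν : S → ℝ)
    (ψ : G → ℝ) (h : InvH ρ' ψ) : InvH ρ' (mixH ρ ν ψ) := by
  intro π' g
  unfold mixH
  apply Finset.sum_congr rfl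
  intro k _
  congr 1
  have e : (ρ k)⁻¹ * (ρ' π' * g) = ρ' π' * ((ρ k)⁻¹ * g) := by
    rw [← map_inv, ← mul_assoc, hc, mul_assoc]
  rw [e, h]

theorem avgH_mixH (ρ ρ' : S →* G) (hc : ∀ π π', ρ π * ρ' π' = ρ' π' * ρ π) (ν : S → ℝ)
    (ψ : G → ℝ) : avgH ρ' (mixH ρ ν ψ) = mixH ρ ν (avgH ρ' ψ) := by
  funext g
  unfold avgH mixH
  rw [Finset.sum_comm, Finset.sum_div]
  apply Finset.sum_congr rfl
  intro k _
  rw [← Finset.mul_sum, mul_div_assoc]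
  congr 2
  apply Finset.sum_congr rfl
  intro π' _
  rw [← map_inv, ← mul_assoc, hc, mul_assoc]

theorem mixH_zero_of (ρ : S →* G) (ν : S → ℝ) (ψ : G → ℝ) (h : ψ = 0) : mixH ρ ν ψ = 0 := by
  funext g
  unfold mixH
  rw [h]
  simp

theorem nsq_mixH_le (ρ : S →* G) (ν : S → ℝ) (hν : ∀ k, 0 ≤ ν k) (hν1 : ∑ k, ν k = 1)
    (ψ : G → ℝ) : nsq (mixH ρ ν ψ) ≤ nsq ψ := by
  have h := sum_sq_mix_le ν hν (fun k : S => Equiv.mulLeft (ρ k)⁻¹) ψ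
  rw [hν1, one_pow, one_mul] at h
  exact h

/-- If `ν` contracts mean-zero functions on `S` by `lam`, then the mixture through `ρ` contracts
by `lam` every function whose `ρ`-average vanishes (decompose `G` into `ρ`-orbits). -/
theorem nsq_mixH_le_of_avg_zero (ρ : S →* G) (ν : S → ℝ) (lam : ℝ)
    (H : ∀ φ : S → ℝ, ∑ π, φ π = 0 →
      ∑ π, (∑ k, ν k * φ (k⁻¹ * π)) ^ 2 ≤ lam * ∑ π, (φ π) ^ 2)
    (ψ : G → ℝ) (h0 : avgH ρ ψ = 0) :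
    nsq (mixH ρ ν ψ) ≤ lam * nsq ψ := by
  have avg : ∀ F : G → ℝ, ∑ g, F g = (∑ g, ∑ π : S, F (ρ π * g)) / (Fintype.card S : ℝ) := by
    intro F
    rw [Finset.sum_comm]
    simp_rw [sum_translate]
    rw [Finset.sum_const, Finset.card_univ, nsmul_eq_mul]
    have := cardS_ne (S := S)
    field_simp
  unfold nsq
  rw [avg (fun g => (mixH ρ ν ψ g) ^ 2), avg (fun g => (ψ g) ^ 2), ← mul_div_assoc]
  apply div_le_div_of_nonneg_right _ (cardS_pos (S := S)).le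
  rw [Finset.mul_sum]
  apply Finset.sum_le_sum
  intro g _
  have hφ : ∑ π : S, ψ (ρ π * g) = 0 := by
    have h1 : avgH ρ ψ g = 0 := by rw [h0]; rfl
    unfold avgH at h1
    rcases div_eq_zero_iff.mp h1 with h2 | h2
    · exact h2
    · exact absurd h2 cardS_ne
  have h3 := H (fun π => ψ (ρ π * g)) hφ
  refine le_trans (le_of_eq ?_) h3
  apply Finset.sum_congr rfl
  intro π _
  congr 1
  unfold mixH
  apply Finset.sum_congr rfl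
  intro k _
  rw [map_mul, map_inv, mul_assoc]

/-! ### Adding blocks -/

theorem nsq_add_le (x y : G → ℝ) (a b nx ny : ℝ) (ha : 0 < a) (hb : 0 < b)
    (hx : nsq x ≤ a * nx) (hy : nsq y ≤ b * ny) : nsq (x + y) ≤ (a + b) * (nx + ny) := by
  have h1 : ∀ g, (x g + y g) ^ 2 ≤ (a + b) * ((x g) ^ 2 / a + (y g) ^ 2 / b) := by
    intro g
    have e : (a + b) * ((x g) ^ 2 / a + (y g) ^ 2 / b) - (x g + y g) ^ 2 =
        (b * x g - a * y g) ^ 2 / (a * b) := by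
      field_simp
      ring
    have h2 : 0 ≤ (b * x g - a * y g) ^ 2 / (a * b) := by positivity
    linarith
  have h3 : nsq (x + y) ≤ (a + b) * (nsq x / a + nsq y / b) := by
    unfold nsq
    rw [Finset.sum_div, Finset.sum_div, ← Finset.sum_add_distrib, Finset.mul_sum]
    exact Finset.sum_le_sum (fun g _ => h1 g)
  have h4 : nsq x / a ≤ nx := by
    rw [div_le_iff₀ ha]
    linarith
  have h5 : nsq y / b ≤ ny := by
    rw [div_le_iff₀ hb]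
    linarith
  have hab : 0 < a + b := by linarith
  calc nsq (x + y) ≤ (a + b) * (nsq x / a + nsq y / b) := h3
    _ ≤ (a + b) * (nx + ny) := by
        apply mul_le_mul_of_nonneg_left _ hab.le
        linarith

/-! ### The four-block theorem -/

/-- **Four-block contraction.**  `ρ0`, `ρ1` commuting actions of `S` on `G`; `ν` a probability
weight on `S` contracting mean-zero functions on `S` by `lam`; `E` additive with the three block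
bounds `hE0` (functions invariant under both actions, mean zero), `hE1`, `hE2` (mixtures of
functions invariant under one action with vanishing average under the other) and `hE3`
(contraction).  Then `E ∘ mixH ρ0 ν ∘ mixH ρ1 ν` contracts mean-zero functions by
`a0 + lam / 2 + lam ^ 2`. -/
theorem four_block (ρ0 ρ1 : S →* G) (hc : ∀ π π', ρ0 π * ρ1 π' = ρ1 π' * ρ0 π)
    (ν : S → ℝ) (hν : ∀ k, 0 ≤ ν k) (hν1 : ∑ k, ν k = 1) (lam : ℝ) (hlam : 0 < lam)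
    (H : ∀ φ : S → ℝ, ∑ π, φ π = 0 →
      ∑ π, (∑ k, ν k * φ (k⁻¹ * π)) ^ 2 ≤ lam * ∑ π, (φ π) ^ 2)
    (E : (G → ℝ) → (G → ℝ)) (hEadd : ∀ ψ φ, E (ψ + φ) = E ψ + E φ)
    (a0 : ℝ) (ha0 : 0 < a0)
    (hE0 : ∀ ψ : G → ℝ, InvH ρ0 ψ → InvH ρ1 ψ → ∑ g, ψ g = 0 → nsq (E ψ) ≤ a0 * nsq ψ)
    (hE1 : ∀ f : G → ℝ, InvH ρ1 f → avgH ρ0 f = 0 →
      nsq (E (mixH ρ0 ν f)) ≤ (1 / 4) * nsq (mixH ρ0 ν f))
    (hE2 : ∀ f : G → ℝ, InvH ρ0 f → avgH ρ1 f = 0 →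
      nsq (E (mixH ρ1 ν f)) ≤ (1 / 4) * nsq (mixH ρ1 ν f))
    (hE3 : ∀ ψ : G → ℝ, nsq (E ψ) ≤ nsq ψ)
    (ψ : G → ℝ) (hψ : ∑ g, ψ g = 0) :
    nsq (E (mixH ρ0 ν (mixH ρ1 ν ψ))) ≤ (a0 + lam / 2 + lam ^ 2) * nsq ψ := by
  have hc' : ∀ π π', ρ1 π * ρ0 π' = ρ0 π' * ρ1 π := fun π π' => (hc π' π).symm
  -- the blocks
  have hAB : avgH ρ1 (avgH ρ0 ψ) = avgH ρ0 (avgH ρ1 ψ) := avgH_comm ρ1 ρ0 hc' ψ
  have i0_00 : InvH ρ0 (avgH ρ0 (avgH ρ1 ψ)) := avgH_inv ρ0 _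
  have i1_B : InvH ρ1 (avgH ρ1 ψ) := avgH_inv ρ1 ψ
  have i1_00 : InvH ρ1 (avgH ρ0 (avgH ρ1 ψ)) := avgH_inv_of_comm ρ1 ρ0 hc' _ i1_B
  have i0_A : InvH ρ0 (avgH ρ0 ψ) := avgH_inv ρ0 ψ
  -- f10 = Bψ - ABψ
  have i1_10 : InvH ρ1 (avgH ρ1 ψ - avgH ρ0 (avgH ρ1 ψ)) := i1_B.sub i1_00
  have z0_10 : avgH ρ0 (avgH ρ1 ψ - avgH ρ0 (avgH ρ1 ψ)) = 0 := by
    rw [avgH_sub, avgH_idem, sub_self]
  -- f01 = Aψ - ABψ
  have i0_01 : InvH ρ0 (avgH ρ0 ψ - avgH ρ0 (avgH ρ1 ψ)) := i0_A.sub i0_00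
  have z1_01 : avgH ρ1 (avgH ρ0 ψ - avgH ρ0 (avgH ρ1 ψ)) = 0 := by
    rw [avgH_sub, hAB, avgH_comm ρ1 ρ0 hc' (avgH ρ1 ψ), avgH_idem, sub_self]
  -- f11 = ψ - Aψ - (Bψ - ABψ)
  have z0_11 : avgH ρ0 (ψ - avgH ρ0 ψ - (avgH ρ1 ψ - avgH ρ0 (avgH ρ1 ψ))) = 0 := by
    rw [avgH_sub, avgH_sub, z0_10, avgH_idem, sub_self, sub_self]
  have z1_11 : avgH ρ1 (ψ - avgH ρ0 ψ - (avgH ρ1 ψ - avgH ρ0 (avgH ρ1 ψ))) = 0 := by
    rw [avgH_sub, avgH_sub, avgH_sub, hAB, avgH_comm ρ1 ρ0 hc' (avgH ρ1 ψ), avgH_idem,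
      sub_self]
  -- Pythagoras
  have pyth : nsq ψ = ((nsq (avgH ρ0 (avgH ρ1 ψ)) + nsq (avgH ρ1 ψ - avgH ρ0 (avgH ρ1 ψ))) +
      nsq (avgH ρ0 ψ - avgH ρ0 (avgH ρ1 ψ))) +
      nsq (ψ - avgH ρ0 ψ - (avgH ρ1 ψ - avgH ρ0 (avgH ρ1 ψ))) := by
    have p1 := nsq_pyth ρ0 ψ
    have p2 := nsq_pyth ρ1 (avgH ρ0 ψ)
    have p3 := nsq_pyth ρ1 (ψ - avgH ρ0 ψ)
    rw [hAB] at p2
    rw [avgH_sub, hAB] at p3
    linarith
  -- the operator and its additivity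
  have hTadd : ∀ x y : G → ℝ, E (mixH ρ0 ν (mixH ρ1 ν (x + y))) =
      E (mixH ρ0 ν (mixH ρ1 ν x)) + E (mixH ρ0 ν (mixH ρ1 ν y)) := by
    intro x y
    rw [mixH_add, mixH_add, hEadd]
  have dec : ψ = ((avgH ρ0 (avgH ρ1 ψ) + (avgH ρ1 ψ - avgH ρ0 (avgH ρ1 ψ))) +
      (avgH ρ0 ψ - avgH ρ0 (avgH ρ1 ψ))) +
      (ψ - avgH ρ0 ψ - (avgH ρ1 ψ - avgH ρ0 (avgH ρ1 ψ))) := by
    funext g
    simp only [Pi.add_apply, Pi.sub_apply]
    ring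
  -- block 0
  have b0 : nsq (E (mixH ρ0 ν (mixH ρ1 ν (avgH ρ0 (avgH ρ1 ψ))))) ≤
      a0 * nsq (avgH ρ0 (avgH ρ1 ψ)) := by
    rw [mixH_of_inv ρ1 ν hν1 _ i1_00, mixH_of_inv ρ0 ν hν1 _ i0_00]
    apply hE0 _ i0_00 i1_00
    rw [sum_avgH, sum_avgH, hψ]
  -- block 1
  have b1 : nsq (E (mixH ρ0 ν (mixH ρ1 ν (avgH ρ1 ψ - avgH ρ0 (avgH ρ1 ψ))))) ≤
      (lam / 4) * nsq (avgH ρ1 ψ - avgH ρ0 (avgH ρ1 ψ)) := by
    rw [mixH_of_inv ρ1 ν hν1 _ i1_10]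
    have h1 := hE1 _ i1_10 z0_10
    have h2 := nsq_mixH_le_of_avg_zero ρ0 ν lam H _ z0_10
    linarith
  -- block 2
  have b2 : nsq (E (mixH ρ0 ν (mixH ρ1 ν (avgH ρ0 ψ - avgH ρ0 (avgH ρ1 ψ))))) ≤
      (lam / 4) * nsq (avgH ρ0 ψ - avgH ρ0 (avgH ρ1 ψ)) := by
    rw [mixH_of_inv ρ0 ν hν1 _ (mixH_inv_of_comm ρ1 ρ0 hc' ν _ i0_01)]
    have h1 := hE2 _ i0_01 z1_01
    have h2 := nsq_mixH_le_of_avg_zero ρ1 ν lam H _ z1_01
    linarith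
  -- block 3
  have b3 : nsq (E (mixH ρ0 ν (mixH ρ1 ν
      (ψ - avgH ρ0 ψ - (avgH ρ1 ψ - avgH ρ0 (avgH ρ1 ψ)))))) ≤
      (lam ^ 2) * nsq (ψ - avgH ρ0 ψ - (avgH ρ1 ψ - avgH ρ0 (avgH ρ1 ψ))) := by
    have h1 := hE3 (mixH ρ0 ν (mixH ρ1 ν (ψ - avgH ρ0 ψ - (avgH ρ1 ψ - avgH ρ0 (avgH ρ1 ψ)))))
    have h2 := nsq_mixH_le_of_avg_zero ρ1 ν lam H _ z1_11
    have z : avgH ρ0 (mixH ρ1 ν (ψ - avgH ρ0 ψ - (avgH ρ1 ψ - avgH ρ0 (avgH ρ1 ψ)))) = 0 := by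
      rw [avgH_mixH ρ1 ρ0 hc' ν]
      exact mixH_zero_of ρ1 ν _ z0_11
    have h3 := nsq_mixH_le_of_avg_zero ρ0 ν lam H _ z
    have h4 : lam * nsq (mixH ρ1 ν (ψ - avgH ρ0 ψ - (avgH ρ1 ψ - avgH ρ0 (avgH ρ1 ψ)))) ≤
        lam * (lam * nsq (ψ - avgH ρ0 ψ - (avgH ρ1 ψ - avgH ρ0 (avgH ρ1 ψ)))) :=
      mul_le_mul_of_nonneg_left h2 hlam.le
    calc nsq (E (mixH ρ0 ν (mixH ρ1 ν (ψ - avgH ρ0 ψ - (avgH ρ1 ψ - avgH ρ0 (avgH ρ1 ψ))))))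
        ≤ nsq (mixH ρ0 ν (mixH ρ1 ν (ψ - avgH ρ0 ψ - (avgH ρ1 ψ - avgH ρ0 (avgH ρ1 ψ))))) := h1
      _ ≤ lam * nsq (mixH ρ1 ν (ψ - avgH ρ0 ψ - (avgH ρ1 ψ - avgH ρ0 (avgH ρ1 ψ)))) := h3
      _ ≤ lam * (lam * nsq (ψ - avgH ρ0 ψ - (avgH ρ1 ψ - avgH ρ0 (avgH ρ1 ψ)))) := h4
      _ = (lam ^ 2) * nsq (ψ - avgH ρ0 ψ - (avgH ρ1 ψ - avgH ρ0 (avgH ρ1 ψ))) := by ring
  -- sum up
  have hl4 : 0 < lam / 4 := by positivity
  have hl2 : 0 < lam ^ 2 := by positivity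
  have s1 := nsq_add_le _ _ a0 (lam / 4) _ _ ha0 hl4 b0 b1
  have s2 := nsq_add_le _ _ (a0 + lam / 4) (lam / 4) _ _ (by linarith) hl4 s1 b2
  have s3 := nsq_add_le _ _ (a0 + lam / 4 + lam / 4) (lam ^ 2) _ _ (by linarith) hl2 s2 b3
  rw [← hTadd, ← hTadd, ← hTadd, ← dec, ← pyth] at s3
  have e : a0 + lam / 4 + lam / 4 + lam ^ 2 = a0 + lam / 2 + lam ^ 2 := by ring
  rw [e] at s3
  exact s3

end Abstract

end Crest.Agent.Helper54.Shuffle
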