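import Mathlib
import Crest.Agent.Helper54.Shuffle.GapDefs
import Crest.Agent.Helper54.Shuffle.GapAbstract

/-!
helper54: ASSEMBLY of (GAP) for S0222 (Thorp shuffle) from the leaves whose statement shapes are
fixed in `GapDefs.lean`:

`gap_step : PassRec m' t → SingleUniform m' t → Contracts m' t lam' → JohnsonBound (2 * m') →
  LemmaA (2 * m') → Contracts (2 * m') (t + 1) (1 / (4 * m') + lam' / 2 + lam' ^ 2)`.

The proof is the four-block argument of `GapAbstract.four_block` with the two commuting actions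
"shuffle the top row" / "shuffle the bottom row" of the two-row deck.
-/

set_option autoImplicit false
set_option linter.unusedSectionVars false

namespace Crest.Agent.Helper54.Shuffle

open Crest.ProbabilityR.Shuffle Crest.Agent.Helper13.Shuffle Crest.Agent.Helper3.Shuffle

section Concrete

variable {M : ℕ}

/-! ### Group lemmas for `rows`, `swapCols` -/

theorem mkPos_inj {y y' : Fin M} {b b' : Bool} :
    mkPos y b = mkPos y' b' ↔ y = y' ∧ b = b' := by
  constructor
  · intro h
    have h1 := congrArg colOf h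
    have h2 := congrArg rowOf h
    rw [colOf_mkPos, colOf_mkPos] at h1
    rw [rowOf_mkPos, rowOf_mkPos] at h2
    exact ⟨h1, h2⟩
  · rintro ⟨rfl, rfl⟩
    rfl

theorem exists_mkPos (x : Fin (2 * M)) : ∃ y b, x = mkPos y b :=
  ⟨colOf x, rowOf x, (mkPos_colOf_rowOf x).symm⟩

theorem rows_mul (π0 π1 σ0 σ1 : Equiv.Perm (Fin M)) :
    rows π0 π1 * rows σ0 σ1 = rows (π0 * σ0) (π1 * σ1) := by
  apply Equiv.ext
  intro x
  obtain ⟨y, b, rfl⟩ := exists_mkPos x
  rw [Equiv.Perm.mul_apply, rows_mkPos, rows_mkPos, rows_mkPos]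
  cases b <;> simp

theorem rows_one : rows (1 : Equiv.Perm (Fin M)) 1 = 1 := by
  apply Equiv.ext
  intro x
  obtain ⟨y, b, rfl⟩ := exists_mkPos x
  rw [rows_mkPos]
  cases b <;> simp

/-- Shuffle the top row. -/
def topHom (M : ℕ) : Equiv.Perm (Fin M) →* Equiv.Perm (Fin (2 * M)) where
  toFun π := rows π 1
  map_one' := rows_one
  map_mul' π σ := by rw [rows_mul, mul_one]

/-- Shuffle the bottom row. -/
def botHom (M : ℕ) : Equiv.Perm (Fin M) →* Equiv.Perm (Fin (2 * M)) where
  toFun π := rows 1 π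
  map_one' := rows_one
  map_mul' π σ := by rw [rows_mul, mul_one]

theorem topHom_apply (π : Equiv.Perm (Fin M)) : topHom M π = rows π 1 := rfl

theorem botHom_apply (π : Equiv.Perm (Fin M)) : botHom M π = rows 1 π := rfl

theorem top_bot_comm (π π' : Equiv.Perm (Fin M)) :
    topHom M π * botHom M π' = botHom M π' * topHom M π := by
  rw [topHom_apply, botHom_apply, rows_mul, rows_mul, mul_one, one_mul, mul_one, one_mul]

theorem rows_eq_top_mul_bot (π0 π1 : Equiv.Perm (Fin M)) :
    rows π0 π1 = topHom M π0 * botHom M π1 := by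
  rw [topHom_apply, botHom_apply, rows_mul, mul_one, one_mul]

theorem swapCols_mul_self (c : Fin M → Bool) : swapCols c * swapCols c = 1 := by
  apply Equiv.ext
  intro x
  obtain ⟨y, b, rfl⟩ := exists_mkPos x
  rw [Equiv.Perm.mul_apply, swapCols_mkPos, swapCols_mkPos]
  simp

theorem swapCols_inv (c : Fin M → Bool) : (swapCols c)⁻¹ = swapCols c :=
  inv_eq_of_mul_eq_one_left (swapCols_mul_self c)

/-- Exchange the two rows. -/
def flipAll (M : ℕ) : Equiv.Perm (Fin (2 * M)) := swapCols (fun _ => true)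

theorem flipAll_mkPos (y : Fin M) (b : Bool) : flipAll M (mkPos y b) = mkPos y (!b) := by
  unfold flipAll
  rw [swapCols_mkPos]
  simp

theorem flipAll_mul_self : flipAll M * flipAll M = 1 := swapCols_mul_self _

theorem flipAll_mul_swapCols (c : Fin M → Bool) :
    flipAll M * swapCols c = swapCols c * flipAll M := by
  apply Equiv.ext
  intro x
  obtain ⟨y, b, rfl⟩ := exists_mkPos x
  rw [Equiv.Perm.mul_apply, Equiv.Perm.mul_apply, swapCols_mkPos, flipAll_mkPos, flipAll_mkPos,
    swapCols_mkPos]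
  cases b <;> cases c y <;> rfl

theorem flipAll_mul_rows (π0 π1 : Equiv.Perm (Fin M)) :
    flipAll M * rows π0 π1 = rows π1 π0 * flipAll M := by
  apply Equiv.ext
  intro x
  obtain ⟨y, b, rfl⟩ := exists_mkPos x
  rw [Equiv.Perm.mul_apply, Equiv.Perm.mul_apply, rows_mkPos, flipAll_mkPos, flipAll_mkPos,
    rows_mkPos]
  cases b <;> rfl

theorem rows_eq_mkPos_iff (π0 π1 : Equiv.Perm (Fin M)) (x : Fin (2 * M)) (y : Fin M) (b : Bool) :
    rows π0 π1 x = mkPos y b ↔ (rowOf x = b ∧ (if b then π1 else π0) (colOf x) = y) := by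
  rw [rows_apply, mkPos_inj]
  constructor
  · rintro ⟨h1, h2⟩
    refine ⟨h2, ?_⟩
    rw [← h2]
    exact h1
  · rintro ⟨h1, h2⟩
    refine ⟨?_, h1⟩
    rw [h1]
    exact h2

theorem rowOf_rows (π0 π1 : Equiv.Perm (Fin M)) (x : Fin (2 * M)) :
    rowOf (rows π0 π1 x) = rowOf x := by
  rw [rows_apply, rowOf_mkPos]

/-! ### The column-swap average -/

theorem opE_add (ψ φ : Equiv.Perm (Fin (2 * M)) → ℝ) : opE M (ψ + φ) = opE M ψ + opE M φ := by
  funext g
  simp only [opE, Pi.add_apply, Finset.sum_add_distrib, add_div]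

theorem nsq_opE_le (ψ : Equiv.Perm (Fin (2 * M)) → ℝ) : nsq (opE M ψ) ≤ nsq ψ := by
  have h := sum_sq_mix_le (fun _ : Fin M → Bool => 1 / (2 : ℝ) ^ M) (fun _ => by positivity)
    (fun c : Fin M → Bool => Equiv.mulLeft (swapCols c)⁻¹) ψ
  have hs : ∑ _c : Fin M → Bool, 1 / (2 : ℝ) ^ M = 1 := by
    rw [Finset.sum_const, Finset.card_univ, nsmul_eq_mul]
    simp
  rw [hs, one_pow, one_mul] at h
  refine le_trans (le_of_eq ?_) h
  unfold nsq opE
  apply Finset.sum_congr rfl
  intro g _
  congr 1
  rw [Finset.sum_div]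
  apply Finset.sum_congr rfl
  intro c _
  rw [div_eq_mul_one_div, mul_comm]
  rfl

/-! ### The pass operator as `E ∘ mix top ∘ mix bottom` -/

theorem opL_eq_of_passRec (m' t : ℕ) (hP : PassRec m' t)
    (ψ : Equiv.Perm (Fin (2 * (2 * m'))) → ℝ) :
    opL (2 * m') (t + 1) ψ =
      opE (2 * m') (mixH (topHom (2 * m')) (law m' t) (mixH (botHom (2 * m')) (law m' t) ψ)) := by
  funext g
  rw [opL_eq_expect, hP]
  unfold opE
  congr 1
  apply Finset.sum_congr rfl
  intro c _
  rw [expect_eq_sum_law]
  unfold mixH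
  apply Finset.sum_congr rfl
  intro π0 _
  congr 1
  rw [expect_eq_sum_law]
  apply Finset.sum_congr rfl
  intro π1 _
  congr 2
  rw [rows_eq_top_mul_bot, mul_inv_rev, mul_inv_rev, mul_assoc, mul_assoc]

/-! ### The single-card zero-sum condition of Lemma A for a mixture -/

theorem zero_sum_mix (ρ : Equiv.Perm (Fin M) →* Equiv.Perm (Fin (2 * M))) (b : Bool)
    (hρ : ∀ (k : Equiv.Perm (Fin M)) (x : Fin (2 * M)) (y : Fin M),
      ρ k x = mkPos y b ↔ (rowOf x = b ∧ k (colOf x) = y))
    (hrow : ∀ (k : Equiv.Perm (Fin M)) (x : Fin (2 * M)), rowOf (ρ k x) = rowOf x)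
    (ν : Equiv.Perm (Fin M) → ℝ) (c : ℝ)
    (hν : ∀ y z : Fin M, ∑ k, ν k * (if k y = z then (1 : ℝ) else 0) = c)
    (f : Equiv.Perm (Fin (2 * M)) → ℝ) (hf : avgH ρ f = 0) (a : Fin (2 * M)) (y : Fin M) :
    ∑ g : Equiv.Perm (Fin (2 * M)), (if g a = mkPos y b then mixH ρ ν f g else 0) = 0 := by
  -- the indicator of "card `a` is in row `b`" is `ρ`-invariant
  have hχ : InvH ρ (fun h : Equiv.Perm (Fin (2 * M)) => if rowOf (h a) = b then (1 : ℝ) else 0) := by
    intro π g
    simp only [Equiv.Perm.mul_apply, hrow]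
  have h0 : ∑ h : Equiv.Perm (Fin (2 * M)), (if rowOf (h a) = b then (1 : ℝ) else 0) * f h = 0 := by
    rw [← sum_mul_avgH ρ _ f hχ, hf]
    simp
  -- move the translation to the indicator
  have h1 : ∀ k : Equiv.Perm (Fin M),
      ∑ g : Equiv.Perm (Fin (2 * M)), (if g a = mkPos y b then ν k * f ((ρ k)⁻¹ * g) else 0) =
      ∑ h : Equiv.Perm (Fin (2 * M)),
        ((if rowOf (h a) = b then (1 : ℝ) else 0) * f h) *
          (ν k * (if k (colOf (h a)) = y then (1 : ℝ) else 0)) := by
    intro k
    rw [← sum_translate (ρ k)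
      (fun g => if g a = mkPos y b then ν k * f ((ρ k)⁻¹ * g) else 0)]
    apply Finset.sum_congr rfl
    intro h _
    rw [inv_mul_cancel_left, Equiv.Perm.mul_apply]
    by_cases h1 : rowOf (h a) = b
    · by_cases h2 : k (colOf (h a)) = y
      · rw [if_pos ((hρ k (h a) y).mpr ⟨h1, h2⟩), if_pos h1, if_pos h2]
        ring
      · rw [if_neg (fun hh => h2 ((hρ k (h a) y).mp hh).2), if_pos h1, if_neg h2]
        ring
    · rw [if_neg (fun hh => h1 ((hρ k (h a) y).mp hh).1), if_neg h1]
      ring
  have h2 : ∀ g : Equiv.Perm (Fin (2 * M)), (if g a = mkPos y b then mixH ρ ν f g else 0) =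
      ∑ k, (if g a = mkPos y b then ν k * f ((ρ k)⁻¹ * g) else 0) := by
    intro g
    unfold mixH
    by_cases hg : g a = mkPos y b
    · simp only [if_pos hg]
    · simp only [if_neg hg, Finset.sum_const_zero]
  simp_rw [h2]
  rw [Finset.sum_comm]
  simp_rw [h1]
  rw [Finset.sum_comm]
  have h3 : ∀ h : Equiv.Perm (Fin (2 * M)),
      ∑ k : Equiv.Perm (Fin M), ((if rowOf (h a) = b then (1 : ℝ) else 0) * f h) *
          (ν k * (if k (colOf (h a)) = y then (1 : ℝ) else 0)) =
      ((if rowOf (h a) = b then (1 : ℝ) else 0) * f h) * c := by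
    intro h
    rw [← Finset.mul_sum, hν]
  simp_rw [h3]
  rw [← Finset.sum_mul, h0, zero_mul]

/-! ### The mirror image of Lemma A (bottom row instead of top row) -/

theorem lemmaA_mirror (hA : LemmaA M) (u : Equiv.Perm (Fin (2 * M)) → ℝ)
    (hinv : ∀ (π : Equiv.Perm (Fin M)) (g : Equiv.Perm (Fin (2 * M))), u (rows π 1 * g) = u g)
    (hz : ∀ (a : Fin (2 * M)) (y : Fin M),
      ∑ g : Equiv.Perm (Fin (2 * M)), (if g a = mkPos y true then u g else 0) = 0) :
    ∑ g, (opE M u g) ^ 2 ≤ (1 / 4) * ∑ g, (u g) ^ 2 := by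
  have key := hA (fun g => u (flipAll M * g)) ?_ ?_
  · have e1 : ∀ g, opE M (fun g => u (flipAll M * g)) g = opE M u (flipAll M * g) := by
      intro g
      unfold opE
      congr 1
      apply Finset.sum_congr rfl
      intro c _
      show u (flipAll M * ((swapCols c)⁻¹ * g)) = u ((swapCols c)⁻¹ * (flipAll M * g))
      rw [swapCols_inv, ← mul_assoc, flipAll_mul_swapCols, mul_assoc]
    simp_rw [e1] at key
    rw [sum_translate (flipAll M) (fun g => (opE M u g) ^ 2),
      sum_translate (flipAll M) (fun g => (u g) ^ 2)] at key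
    exact key
  · intro π g
    show u (flipAll M * (rows 1 π * g)) = u (flipAll M * g)
    rw [← mul_assoc, flipAll_mul_rows, mul_assoc, hinv]
  · intro a y
    have e2 : ∀ g : Equiv.Perm (Fin (2 * M)),
        (if g a = mkPos y false then u (flipAll M * g) else 0) =
        (if (flipAll M * g) a = mkPos y true then u (flipAll M * g) else 0) := by
      intro g
      have e3 : (g a = mkPos y false) ↔ ((flipAll M * g) a = mkPos y true) := by
        rw [Equiv.Perm.mul_apply]
        constructor
        · intro h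
          rw [h, flipAll_mkPos]
          rfl
        · intro h
          have h' := congrArg (flipAll M) h
          rw [← Equiv.Perm.mul_apply, flipAll_mul_self, flipAll_mkPos] at h'
          exact h'
      by_cases hg : g a = mkPos y false
      · rw [if_pos hg, if_pos (e3.mp hg)]
      · rw [if_neg hg, if_neg (fun hh => hg (e3.mpr hh))]
    simp_rw [e2]
    rw [sum_translate (flipAll M) (fun g => if g a = mkPos y true then u g else 0)]
    exact hz a y

/-! ### The step of the induction -/

theorem contracts_mono {m t : ℕ} {lam lam2 : ℝ} (h : Contracts m t lam) (hle : lam ≤ lam2) :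
    Contracts m t lam2 := by
  intro ψ hψ
  refine (h ψ hψ).trans ?_
  exact mul_le_mul_of_nonneg_right hle (Finset.sum_nonneg (fun _ _ => sq_nonneg _))

/-- **The GAP step.**  From the pass recursion, single-card uniformity and the contraction
`lam'` of the half deck, plus the Johnson bound and Lemma A for the full deck: the full deck
contracts by `1 / (4 m') + lam' / 2 + lam' ^ 2`. -/
theorem gap_step (m' t : ℕ) (hm : 1 ≤ m') (lam' : ℝ) (hlam : 0 < lam')
    (hP : PassRec m' t) (hS : SingleUniform m' t) (hC : Contracts m' t lam')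
    (hJ : JohnsonBound (2 * m')) (hA : LemmaA (2 * m')) :
    Contracts (2 * m') (t + 1) (1 / (4 * (m' : ℝ)) + lam' / 2 + lam' ^ 2) := by
  intro ψ hψ
  have hm' : (0 : ℝ) < (m' : ℝ) := by exact_mod_cast hm
  have hν : ∀ y z : Fin (2 * m'),
      ∑ k, law m' t k * (if k y = z then (1 : ℝ) else 0) = 1 / (2 * (m' : ℝ)) := by
    intro y z
    rw [← expect_eq_sum_law]
    exact hS y z
  have key := four_block (topHom (2 * m')) (botHom (2 * m')) top_bot_comm (law m' t)
    (law_nonneg m' t) (sum_law m' t) lam' hlam hC (opE (2 * m')) opE_add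
    (1 / (4 * (m' : ℝ))) (by positivity) ?_ ?_ ?_ nsq_opE_le ψ hψ
  · rw [opL_eq_of_passRec m' t hP ψ]
    exact key
  · -- block 0: Johnson
    intro φ h0 h1 hsum
    have h := hJ φ ?_ hsum
    · have e : (1 : ℝ) / (2 * ((2 * m' : ℕ) : ℝ)) = 1 / (4 * (m' : ℝ)) := by
        push_cast
        ring
      rw [e] at h
      exact h
    · intro π0 π1 g
      rw [rows_eq_top_mul_bot, mul_assoc, h0, h1]
  · -- block 1: Lemma A
    intro f hinv hz
    apply hA
    · intro π g
      exact mixH_inv_of_comm (topHom (2 * m')) (botHom (2 * m')) top_bot_comm (law m' t) f hinv π g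
    · intro a y
      apply zero_sum_mix (topHom (2 * m')) false _ _ (law m' t) _ hν f hz a y
      · intro k x y
        rw [topHom_apply, rows_eq_mkPos_iff]
        simp
      · intro k x
        rw [topHom_apply, rowOf_rows]
  · -- block 2: mirror image of Lemma A
    intro f hinv hz
    apply lemmaA_mirror hA
    · intro π g
      exact mixH_inv_of_comm (botHom (2 * m')) (topHom (2 * m'))
        (fun π π' => (top_bot_comm π' π).symm) (law m' t) f hinv π g
    · intro a y
      apply zero_sum_mix (botHom (2 * m')) true _ _ (law m' t) _ hν f hz a y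
      · intro k x y
        rw [botHom_apply, rows_eq_mkPos_iff]
        simp
      · intro k x
        rw [botHom_apply, rowOf_rows]

end Concrete

end Crest.Agent.Helper54.Shuffle
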