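import Mathlib
import Crest.Agent.Helper13.Shuffle.GapDefs
import Crest.Agent.Helper54.Shuffle.GapStep

/-!
helper54: the BRIDGE between the two interfaces of the GAP pre-build for S0222.

* helper13's abstract model (`Crest.Agent.Helper13.Gap`): positions `ι × Bool`, an arrangement is
  `c : Perm (ι × Bool)`, `c p` = the card at position `p`, shuffles act on the right;
* helper54's Prelude-facing model (`Crest.Agent.Helper54.Shuffle`): positions `Fin (2 * M)`, an
  arrangement is `g : Perm (Fin (2 * M))`, `g a` = the position of card `a`, shuffles act on the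
  left.

`phi M g = e ∘ g⁻¹ ∘ e⁻¹` (`e = posEquiv M`) translates arrangements.  The pure-maths leaves are
proved in helper13's shapes `JohnsonStmt (Fin M)`, `LemmaAStmt (Fin M)`; this file turns them
literally into `JohnsonBound M`, `LemmaA M`, the hypotheses of `gap_step`.
-/

set_option autoImplicit false
set_option linter.unusedSectionVars false

namespace Crest.Agent.Helper54.Shuffle

open Crest.Agent.Helper13

section Bridge

variable {M : ℕ}

/-- Conjugation of a position permutation by `posEquiv`. -/
def conjP (M : ℕ) (k : Equiv.Perm (Fin (2 * M))) : Equiv.Perm (Fin M × Bool) :=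
  (posEquiv M).permCongr k

/-- Translation of arrangements: "card ↦ position" on `Fin (2 * M)` to "position ↦ card" on
`Fin M × Bool`. -/
def phi (M : ℕ) : Equiv.Perm (Fin (2 * M)) ≃ Equiv.Perm (Fin M × Bool) :=
  (Equiv.inv (Equiv.Perm (Fin (2 * M)))).trans (posEquiv M).permCongr

theorem conjP_apply (k : Equiv.Perm (Fin (2 * M))) (p : Fin M × Bool) :
    conjP M k p = posEquiv M (k ((posEquiv M).symm p)) := rfl

theorem phi_apply (g : Equiv.Perm (Fin (2 * M))) (p : Fin M × Bool) :
    phi M g p = posEquiv M (g⁻¹ ((posEquiv M).symm p)) := rfl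

theorem phi_mul (k g : Equiv.Perm (Fin (2 * M))) : phi M (k⁻¹ * g) = phi M g * conjP M k := by
  apply Equiv.ext
  intro p
  rw [Equiv.Perm.mul_apply, phi_apply, phi_apply, conjP_apply, Equiv.symm_apply_apply,
    mul_inv_rev, inv_inv, Equiv.Perm.mul_apply]

theorem conjP_swapCols (c : Fin M → Bool) : conjP M (swapCols c) = Gap.swapE c := by
  apply Equiv.ext
  intro p
  rw [conjP_apply]
  show posEquiv M ((posEquiv M).symm (swapPair c (posEquiv M ((posEquiv M).symm p)))) = _
  rw [Equiv.apply_symm_apply, Equiv.apply_symm_apply]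
  rfl

theorem conjP_rows (π0 π1 : Equiv.Perm (Fin M)) : conjP M (rows π0 π1) = Gap.rowsE π0 π1 := by
  apply Equiv.ext
  intro p
  rw [conjP_apply]
  show posEquiv M ((posEquiv M).symm (rowsPair π0 π1 (posEquiv M ((posEquiv M).symm p)))) = _
  rw [Equiv.apply_symm_apply, Equiv.apply_symm_apply]
  rcases p with ⟨y, b⟩
  cases b <;> rfl

theorem rows_inv (π0 π1 : Equiv.Perm (Fin M)) : (rows π0 π1)⁻¹ = rows π0⁻¹ π1⁻¹ := by
  apply inv_eq_of_mul_eq_one_right
  rw [rows_mul, mul_inv_cancel, mul_inv_cancel, rows_one]

/-- The key translation formula: right multiplication by `conjP k` on helper13's side is left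
multiplication by `k⁻¹` on helper54's side. -/
theorem phi_symm_mul (k g : Equiv.Perm (Fin (2 * M))) :
    (phi M).symm (phi M g * conjP M k) = k⁻¹ * g := by
  rw [← phi_mul, Equiv.symm_apply_apply]

theorem opE_bridge (ψ : Equiv.Perm (Fin (2 * M)) → ℝ) (g : Equiv.Perm (Fin (2 * M))) :
    Gap.opE (fun c => ψ ((phi M).symm c)) (phi M g) = opE M ψ g := by
  unfold Gap.opE opE
  rw [Fintype.card_fin]
  congr 1
  apply Finset.sum_congr rfl
  intro s _
  beta_reduce
  rw [← conjP_swapCols, phi_symm_mul]

theorem sum_phi (F : Equiv.Perm (Fin M × Bool) → ℝ) :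
    ∑ g : Equiv.Perm (Fin (2 * M)), F (phi M g) = ∑ c, F c :=
  Equiv.sum_comp (phi M) F

/-- helper13's Johnson statement gives helper54's `JohnsonBound`. -/
theorem johnsonBound_of_stmt (hJ : Gap.JohnsonStmt (Fin M)) : JohnsonBound M := by
  intro ψ hinv hsum
  have h := hJ (fun c => ψ ((phi M).symm c)) ?_ ?_
  · rw [← sum_phi, ← sum_phi, Fintype.card_fin] at h
    simp only [opE_bridge, Equiv.symm_apply_apply] at h
    exact h
  · intro σ0 σ1 c
    obtain ⟨g, rfl⟩ := (phi M).surjective c
    rw [← conjP_rows, phi_symm_mul, rows_inv, hinv, Equiv.symm_apply_apply]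
  · rw [← sum_phi]
    simp only [Equiv.symm_apply_apply]
    exact hsum

/-- helper13's Lemma A statement gives helper54's `LemmaA`. -/
theorem lemmaA_of_stmt (hA : Gap.LemmaAStmt (Fin M)) : LemmaA M := by
  intro ψ hinv hz
  have h := hA (fun c => ψ ((phi M).symm c)) ?_ ?_
  · rw [← sum_phi, ← sum_phi] at h
    simp only [opE_bridge, Equiv.symm_apply_apply] at h
    exact h
  · intro σ c
    obtain ⟨g, rfl⟩ := (phi M).surjective c
    rw [← conjP_rows, phi_symm_mul, rows_inv, inv_one, hinv, Equiv.symm_apply_apply]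
  · intro y a
    rw [← sum_phi (fun c => if c (y, false) = a then ψ ((phi M).symm c) else 0)]
    simp only [Equiv.symm_apply_apply]
    have e : ∀ g : Equiv.Perm (Fin (2 * M)),
        (phi M g (y, false) = a) ↔ (g ((posEquiv M).symm a) = mkPos y false) := by
      intro g
      rw [phi_apply]
      have e0 : (posEquiv M).symm (y, false) = mkPos y false := rfl
      rw [e0]
      rw [← Equiv.eq_symm_apply, Equiv.Perm.inv_eq_iff_eq, eq_comm]
    simp only [e]
    exact hz ((posEquiv M).symm a) y

end Bridge

end Crest.Agent.Helper54.Shuffle
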