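import Mathlib
import Crest.Agent.Helper54.Shuffle.GapBridge

/-!
helper54: the INDUCTION over the deck size for (GAP) of S0222 (Thorp shuffle), and the hook into
helper3's `chi2_iterate` / end game.  Everything is stated with the leaves as hypotheses, so the
file is complete (no open goals) before the leaves land:

* `hP  : ∀ d, PassRec (2 ^ d) (d + 1)`                       (pass recursion, helper3)
* `hS0 : SingleUniform 1 1`, `hSstep`, `hC0 : Contracts 1 1 0` (helper99, `W2.lean`)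
* `hJ  : ∀ n, 1 ≤ n → Helper13.Gap.JohnsonStmt (Fin n)`        (Johnson bound)
* `hA  : ∀ n, 2 ≤ n → Helper13.Gap.LemmaAStmt (Fin n)`         (helper82's Lemma A)

Results: `contracts_lamSeq`, `lamSeq_le : lamSeq d ≤ (5 / 6) ^ d`, `contracts_gap`,
`chi2_gap`, and the conditional end game `tendsto_of_spread` (GAP + SPREAD ⇒ the statement of
S0222).  SPREAD itself (a polynomial bound for the chi-square distance after a bounded number of
passes) is NOT proved anywhere.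
-/

set_option autoImplicit false

namespace Crest.Agent.Helper54.Shuffle

open Crest.ProbabilityR.Shuffle Crest.Agent.Helper13.Shuffle Crest.Agent.Helper3.Shuffle
open Crest.Agent.Helper13

/-! ### The numerical recursion -/

/-- `lamSeq 0 = 1/100`, `lamSeq (d+1) = 1 / (4 * 2^d) + lamSeq d / 2 + (lamSeq d)^2`. -/
noncomputable def lamSeq : ℕ → ℝ
  | 0 => 1 / 100
  | d + 1 => 1 / (4 * ((2 ^ d : ℕ) : ℝ)) + lamSeq d / 2 + lamSeq d ^ 2

theorem lamSeq_zero : lamSeq 0 = 1 / 100 := rfl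

theorem lamSeq_succ (d : ℕ) :
    lamSeq (d + 1) = 1 / (4 * ((2 ^ d : ℕ) : ℝ)) + lamSeq d / 2 + lamSeq d ^ 2 := rfl

theorem lamSeq_pos : ∀ d, 0 < lamSeq d
  | 0 => by rw [lamSeq_zero]; norm_num
  | d + 1 => by
      have h := lamSeq_pos d
      rw [lamSeq_succ]
      positivity

theorem lamSeq_succ_le (d : ℕ) (B : ℝ) (h : lamSeq d ≤ B) :
    lamSeq (d + 1) ≤ 1 / (4 * ((2 ^ d : ℕ) : ℝ)) + B / 2 + B ^ 2 := by
  have h0 := lamSeq_pos d
  rw [lamSeq_succ]
  have h2 : lamSeq d ^ 2 ≤ B ^ 2 := pow_le_pow_left₀ h0.le h 2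
  linarith

theorem lamSeq_le_third : ∀ d, lamSeq d ≤ 1 / 3 := by
  have h1 : lamSeq 1 ≤ 26 / 100 := by
    have h := lamSeq_succ_le 0 (1 / 100) (le_of_eq lamSeq_zero)
    norm_num at h
    linarith
  have h2 : lamSeq 2 ≤ 323 / 1000 := by
    have h := lamSeq_succ_le 1 (26 / 100) h1
    norm_num at h
    linarith
  have h3 : lamSeq 3 ≤ 1 / 3 := by
    have h := lamSeq_succ_le 2 (323 / 1000) h2
    norm_num at h
    linarith
  have hbig : ∀ d, 3 ≤ d → lamSeq d ≤ 1 / 3 := by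
    intro d hd
    induction d, hd using Nat.le_induction with
    | base => exact h3
    | succ d hd ih =>
      have h := lamSeq_succ_le d (1 / 3) ih
      have hp : (8 : ℝ) ≤ ((2 ^ d : ℕ) : ℝ) := by
        have : (2 : ℕ) ^ 3 ≤ 2 ^ d := Nat.pow_le_pow_right (by norm_num) hd
        exact_mod_cast this
      have hq : 1 / (4 * ((2 ^ d : ℕ) : ℝ)) ≤ 1 / 32 := by
        rw [div_le_div_iff₀ (by positivity) (by norm_num)]
        linarith
      linarith
  intro d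
  rcases Nat.lt_or_ge d 3 with hd | hd
  · interval_cases d
    · rw [lamSeq_zero]; norm_num
    · linarith
    · linarith
  · exact hbig d hd

/-- `lamSeq d + (3/4) / 2^d` decays geometrically with ratio `5/6`. -/
theorem lamSeq_aux : ∀ d, lamSeq d + (3 / 4) / ((2 ^ d : ℕ) : ℝ) ≤ (19 / 25) * (5 / 6 : ℝ) ^ d
  | 0 => by rw [lamSeq_zero]; norm_num
  | d + 1 => by
      have ih := lamSeq_aux d
      have h3 := lamSeq_le_third d
      have h0 := lamSeq_pos d
      have hp : (0 : ℝ) < ((2 ^ d : ℕ) : ℝ) := by positivity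
      have e1 : ((2 ^ (d + 1) : ℕ) : ℝ) = 2 * ((2 ^ d : ℕ) : ℝ) := by
        push_cast
        ring
      have hsq : lamSeq d ^ 2 ≤ (1 / 3) * lamSeq d := by
        rw [sq]
        exact mul_le_mul_of_nonneg_right h3 h0.le
      have e2 : 1 / (4 * ((2 ^ d : ℕ) : ℝ)) + (3 / 4) / (2 * ((2 ^ d : ℕ) : ℝ)) =
          (5 / 6) * ((3 / 4) / ((2 ^ d : ℕ) : ℝ)) := by
        field_simp
        ring
      have e3 : (5 / 6 : ℝ) ^ (d + 1) = (5 / 6 : ℝ) ^ d * (5 / 6) := pow_succ _ _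
      rw [lamSeq_succ, e1, e3]
      calc 1 / (4 * ((2 ^ d : ℕ) : ℝ)) + lamSeq d / 2 + lamSeq d ^ 2 +
            (3 / 4) / (2 * ((2 ^ d : ℕ) : ℝ))
          = (1 / (4 * ((2 ^ d : ℕ) : ℝ)) + (3 / 4) / (2 * ((2 ^ d : ℕ) : ℝ))) +
            lamSeq d / 2 + lamSeq d ^ 2 := by ring
        _ = (5 / 6) * ((3 / 4) / ((2 ^ d : ℕ) : ℝ)) + lamSeq d / 2 + lamSeq d ^ 2 := by rw [e2]
        _ ≤ (5 / 6) * ((3 / 4) / ((2 ^ d : ℕ) : ℝ)) + lamSeq d / 2 + (1 / 3) * lamSeq d := by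
            linarith
        _ = (5 / 6) * (lamSeq d + (3 / 4) / ((2 ^ d : ℕ) : ℝ)) := by ring
        _ ≤ (5 / 6) * ((19 / 25) * (5 / 6 : ℝ) ^ d) := by linarith
        _ = (19 / 25) * ((5 / 6 : ℝ) ^ d * (5 / 6)) := by ring

theorem lamSeq_le (d : ℕ) : lamSeq d ≤ (5 / 6 : ℝ) ^ d := by
  have h := lamSeq_aux d
  have hp : (0 : ℝ) ≤ (3 / 4) / ((2 ^ d : ℕ) : ℝ) := by positivity
  have hq : (0 : ℝ) ≤ (5 / 6 : ℝ) ^ d := by positivity
  linarith

/-! ### The induction -/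

theorem singleUniform_all
    (hP : ∀ d, PassRec (2 ^ d) (d + 1))
    (hS0 : SingleUniform 1 1)
    (hSstep : ∀ m' t, PassRec m' t → SingleUniform m' t → SingleUniform (2 * m') (t + 1)) :
    ∀ d, SingleUniform (2 ^ d) (d + 1)
  | 0 => hS0
  | d + 1 => by
      have ih := singleUniform_all hP hS0 hSstep d
      have h := hSstep (2 ^ d) (d + 1) (hP d) ih
      rw [pow_succ']
      exact h

/-- (GAP), recursive form, in helper54's leaf shapes. -/
theorem contracts_lamSeq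
    (hP : ∀ d, PassRec (2 ^ d) (d + 1))
    (hS : ∀ d, SingleUniform (2 ^ d) (d + 1))
    (hC0 : Contracts 1 1 0)
    (hJ : ∀ M, 1 ≤ M → JohnsonBound M)
    (hA : ∀ M, 2 ≤ M → LemmaA M) :
    ∀ d, Contracts (2 ^ d) (d + 1) (lamSeq d)
  | 0 => contracts_mono hC0 (lamSeq_pos 0).le
  | d + 1 => by
      have ih := contracts_lamSeq hP hS hC0 hJ hA d
      have h1 : 1 ≤ 2 ^ d := Nat.one_le_two_pow
      have h := gap_step (2 ^ d) (d + 1) h1 (lamSeq d) (lamSeq_pos d) (hP d) (hS d) ih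
        (hJ _ (by omega)) (hA _ (by omega))
      rw [pow_succ']
      exact h

/-- (GAP) `d + 1` shuffles of the deck of `2 * 2 ^ d` cards contract the squared `L²` norm of
mean-zero functions by `(5/6) ^ d`, from the leaves (pure-maths leaves in helper13's shapes). -/
theorem contracts_gap
    (hP : ∀ d, PassRec (2 ^ d) (d + 1))
    (hS0 : SingleUniform 1 1)
    (hSstep : ∀ m' t, PassRec m' t → SingleUniform m' t → SingleUniform (2 * m') (t + 1))
    (hC0 : Contracts 1 1 0)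
    (hJ : ∀ n, 1 ≤ n → Gap.JohnsonStmt (Fin n))
    (hA : ∀ n, 2 ≤ n → Gap.LemmaAStmt (Fin n)) (d : ℕ) :
    Contracts (2 ^ d) (d + 1) ((5 / 6 : ℝ) ^ d) :=
  contracts_mono
    (contracts_lamSeq hP (singleUniform_all hP hS0 hSstep) hC0
      (fun M hM => johnsonBound_of_stmt (hJ M hM)) (fun M hM => lemmaA_of_stmt (hA M hM)) d)
    (lamSeq_le d)

/-- (GAP) in the form consumed by `chi2_iterate`: every further pass multiplies the chi-square
distance by at most `(5/6) ^ d`. -/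
theorem chi2_gap (lam : ℕ → ℝ) (hlam : ∀ d, 0 ≤ lam d)
    (hG : ∀ d, Contracts (2 ^ d) (d + 1) (lam d)) (d s j : ℕ) :
    chi2 (2 ^ d) (s + j * (d + 1)) ≤ (lam d) ^ j * chi2 (2 ^ d) s :=
  chi2_iterate (2 ^ d) (d + 1) s (lam d) (hlam d) (hG d) j

/-! ### The conditional end game: GAP + SPREAD ⇒ S0222 -/

open Filter in
/-- If (GAP) holds with `lam d ≤ θ ^ d` and (SPREAD) holds in the form
`chi2 (2^d) (K0 * (d+1)) ≤ 2 ^ (C * (d+1))` for large `d` (i.e. `≤ n ^ C`, `n = 2^(d+1)` cards,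
after `K0` passes), and `J` further passes beat the polynomial (`θ ^ J * 2 ^ C < 1`) with
`K0 + J ≤ 1600`, then the distance from uniform after `1600` passes tends to `0`. -/
theorem tendsto_of_spread (θ : ℝ) (hθ : 0 ≤ θ)
    (hG : ∀ d, Contracts (2 ^ d) (d + 1) (θ ^ d))
    (K0 J C : ℕ) (hK : K0 + J ≤ 1600) (hJ : θ ^ J * (2 : ℝ) ^ C < 1)
    (hspread : ∀ᶠ d in atTop, chi2 (2 ^ d) (K0 * (d + 1)) ≤ (2 : ℝ) ^ (C * (d + 1))) :
    Tendsto (fun d : ℕ => tvFromUniform (2 ^ d) (1600 * (d + 1))) atTop (nhds 0) := by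
  have hr0 : 0 ≤ θ ^ J * (2 : ℝ) ^ C := by positivity
  have hε : Tendsto (fun d : ℕ => (2 : ℝ) ^ C * (θ ^ J * (2 : ℝ) ^ C) ^ d) atTop (nhds 0) := by
    have h := (tendsto_pow_atTop_nhds_zero_of_lt_one hr0 hJ).const_mul ((2 : ℝ) ^ C)
    simpa using h
  apply tendsto_tv_1600_of_chi2_le (K0 + J) hK _ hε
  filter_upwards [hspread] with d hd
  have h1 := chi2_gap (fun d => θ ^ d) (fun d => pow_nonneg hθ d) hG d (K0 * (d + 1)) J
  have e : (K0 + J) * (d + 1) = K0 * (d + 1) + J * (d + 1) := by ring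
  rw [e]
  have h2 : (θ ^ d) ^ J * chi2 (2 ^ d) (K0 * (d + 1)) ≤ (θ ^ d) ^ J * (2 : ℝ) ^ (C * (d + 1)) :=
    mul_le_mul_of_nonneg_left hd (by positivity)
  have e2 : (θ ^ d) ^ J * (2 : ℝ) ^ (C * (d + 1)) = (2 : ℝ) ^ C * (θ ^ J * (2 : ℝ) ^ C) ^ d := by
    rw [mul_pow, ← pow_mul, ← pow_mul, ← pow_mul, mul_add, mul_one, pow_add, mul_comm d J]
    ring
  linarith

end Crest.Agent.Helper54.Shuffle
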