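import Mathlib
import Crest.Agent.Helper54.Shuffle.GapInduct
import Crest.Agent.Helper99.Shuffle.W2

/-!
helper54: (GAP) for S0222 with the leaves that are already proved plugged in (helper99's `W2`:
base case and single-card uniformity).  Remaining hypotheses:

* `hP : ∀ d, PassRec (2 ^ d) (d + 1)`                  (pass recursion, helper3)
* `hJ : ∀ n, 1 ≤ n → Helper13.Gap.JohnsonStmt (Fin n)`   (Johnson bound)
* `hA : ∀ n, 2 ≤ n → Helper13.Gap.LemmaAStmt (Fin n)`    (helper82's Lemma A)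

and, for the statement of S0222 itself, (SPREAD), which nobody has proved.
-/

set_option autoImplicit false

namespace Crest.Agent.Helper54.Shuffle

open Crest.ProbabilityR.Shuffle Crest.Agent.Helper13.Shuffle Crest.Agent.Helper3.Shuffle
open Crest.Agent.Helper13

/-- (GAP) from the three open leaves. -/
theorem contracts_gap_of_leaves
    (hP : ∀ d, PassRec (2 ^ d) (d + 1))
    (hJ : ∀ n, 1 ≤ n → Gap.JohnsonStmt (Fin n))
    (hA : ∀ n, 2 ≤ n → Gap.LemmaAStmt (Fin n)) (d : ℕ) :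
    Contracts (2 ^ d) (d + 1) ((5 / 6 : ℝ) ^ d) :=
  contracts_gap hP Crest.Agent.Helper99.Shuffle.singleUniform_one_one
    Crest.Agent.Helper99.Shuffle.singleUniform_step
    Crest.Agent.Helper99.Shuffle.contracts_one_one hJ hA d

open Filter in
/-- GAP (from the three open leaves) + SPREAD ⇒ the statement of S0222.  `K0` passes reach
chi-square distance `≤ 2 ^ (C * (d + 1))` (`= n ^ C`), `J` further passes with
`(5/6) ^ J * 2 ^ C < 1` (e.g. `J = 4 * C`) and `K0 + J ≤ 1600`. -/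
theorem tendsto_of_leaves_and_spread
    (hP : ∀ d, PassRec (2 ^ d) (d + 1))
    (hJ : ∀ n, 1 ≤ n → Gap.JohnsonStmt (Fin n))
    (hA : ∀ n, 2 ≤ n → Gap.LemmaAStmt (Fin n))
    (K0 J C : ℕ) (hK : K0 + J ≤ 1600) (hJC : (5 / 6 : ℝ) ^ J * (2 : ℝ) ^ C < 1)
    (hspread : ∀ᶠ d in atTop, chi2 (2 ^ d) (K0 * (d + 1)) ≤ (2 : ℝ) ^ (C * (d + 1))) :
    Tendsto (fun d : ℕ => tvFromUniform (2 ^ d) (1600 * (d + 1))) atTop (nhds 0) :=
  tendsto_of_spread (5 / 6) (by norm_num) (contracts_gap_of_leaves hP hJ hA) K0 J C hK hJC hspread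

/-- `J = 4 * C` further passes are enough: `(5/6)^4 * 2 < 1`. -/
theorem five_sixths_pow (C : ℕ) (hC : 1 ≤ C) : (5 / 6 : ℝ) ^ (4 * C) * (2 : ℝ) ^ C < 1 := by
  have e : (5 / 6 : ℝ) ^ (4 * C) * (2 : ℝ) ^ C = ((5 / 6 : ℝ) ^ 4 * 2) ^ C := by
    rw [pow_mul, mul_pow]
  rw [e]
  apply pow_lt_one₀ (by norm_num) (by norm_num)
  omega

end Crest.Agent.Helper54.Shuffle
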